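import Vale.Agent.P197.MathlibUsed

/-!
Definitions used by the statement of Saxl's conjecture (P197).

* `wordRep X`: the permutation representation of `Perm X` on finitely supported functions on
  words `X → ℕ` (a word records, for each point `x`, the row of `x` in a tabloid).
* `polyt c r`: the polytabloid with column labels `c` and row labels `r`.
* `spechtSub n μ`, `specht n μ`: the Specht module of the Young diagram `μ` on the points `Fin n`.
* `kron n lam mu nu`: the Kronecker coefficient.
* `staircase m`: the staircase diagram.
-/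

namespace Vale.Agent.P197

open Equiv Finset

noncomputable section

/-- The representation of `Perm X` on finitely supported complex functions on words `X → ℕ`;
`g` sends the basis vector of the word `u` to the basis vector of the word `u ∘ g⁻¹`. -/
def wordRep (X : Type) : Representation ℂ (Perm X) ((X → ℕ) →₀ ℂ) where
  toFun g := Finsupp.lmapDomain ℂ ℂ (fun u : X → ℕ => u ∘ ⇑(g⁻¹ : Perm X))
  map_one' := by
    ext u
    simp
  map_mul' g h := by
    ext u
    simp [Function.comp_assoc]

/-- The permutations preserving the labelling `f`. -/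
def stab {X : Type} [Fintype X] [DecidableEq X] (f : X → ℕ) : Finset (Perm X) :=
  Finset.univ.filter fun π => ∀ x, f (π x) = f x

/-- The polytabloid of the tableau with column labels `c` and row labels `r`:
the signed sum over the column stabilizer of the tabloids (row words) `r ∘ π⁻¹`. -/
def polyt {X : Type} [Fintype X] [DecidableEq X] (c r : X → ℕ) : (X → ℕ) →₀ ℂ :=
  ∑ π ∈ stab c, ((Perm.sign π : ℤ) : ℂ) • Finsupp.single (r ∘ ⇑(π⁻¹ : Perm X)) (1 : ℂ)

/-- The underlying space of the Specht module of `μ` on the points `Fin n`: the span of the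
polytabloids of all tableaux, a tableau being a bijection `t` from the points onto the cells. -/
def spechtSub (n : ℕ) (μ : YoungDiagram) : Submodule ℂ ((Fin n → ℕ) →₀ ℂ) :=
  Submodule.span ℂ {v | ∃ t : Fin n ≃ μ.cells,
    v = polyt (fun x => (t x).1.2) (fun x => (t x).1.1)}

theorem wordRep_single {X : Type} (g : Perm X) (u : X → ℕ) (a : ℂ) :
    wordRep X g (Finsupp.single u a) = Finsupp.single (u ∘ ⇑(g⁻¹ : Perm X)) a := by
  simp [wordRep]

theorem mem_stab {X : Type} [Fintype X] [DecidableEq X] {f : X → ℕ} {π : Perm X} :
    π ∈ stab f ↔ ∀ x, f (π x) = f x := by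
  simp [stab]

/-- Translating a polytabloid by `g` relabels the tableau. -/
theorem wordRep_polyt {X : Type} [Fintype X] [DecidableEq X] (g : Perm X) (c r : X → ℕ) :
    wordRep X g (polyt c r) = polyt (c ∘ ⇑(g⁻¹ : Perm X)) (r ∘ ⇑(g⁻¹ : Perm X)) := by
  unfold polyt
  rw [map_sum]
  refine Finset.sum_bij' (fun π _ => g * π * g⁻¹) (fun π _ => g⁻¹ * π * g) ?_ ?_ ?_ ?_ ?_
  · intro π hπ
    rw [mem_stab] at hπ ⊢
    intro x
    simpa using hπ (g⁻¹ x)
  · intro π hπ
    rw [mem_stab] at hπ ⊢
    intro x
    simpa using hπ (g x)
  · intro π _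
    group
  · intro π _
    group
  · intro π _
    rw [map_smul, wordRep_single]
    congr 2
    · have h : (Perm.sign (g * π * g⁻¹) : ℤˣ) = Perm.sign π := by
        rw [Perm.sign_mul, Perm.sign_mul, Perm.sign_inv, mul_comm (Perm.sign g), mul_assoc,
          Int.units_mul_self, mul_one]
      rw [h]
    · funext x
      simp

theorem spechtSub_stable (n : ℕ) (μ : YoungDiagram) (g : Perm (Fin n)) :
    spechtSub n μ ≤ (spechtSub n μ).comap (wordRep (Fin n) g) := by
  unfold spechtSub
  rw [Submodule.span_le]
  rintro v ⟨t, rfl⟩
  refine Submodule.subset_span ⟨(g⁻¹ : Perm (Fin n)).trans t, ?_⟩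
  rw [wordRep_polyt]
  rfl

/-- The Specht module of `μ` as a representation of the symmetric group `Perm (Fin n)`. -/
def specht (n : ℕ) (μ : YoungDiagram) : Representation ℂ (Perm (Fin n)) (spechtSub n μ) :=
  (wordRep (Fin n)).subrepresentation (spechtSub n μ) (spechtSub_stable n μ)

/-- The Kronecker coefficient: the dimension of the space of equivariant linear maps from the
Specht module of `nu` to the tensor product of those of `lam` and `mu` (diagonal action). -/
def kron (n : ℕ) (lam mu nu : YoungDiagram) : ℕ :=
  Module.finrank ℂ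
    (Representation.IntertwiningMap (specht n nu) ((specht n lam).tprod (specht n mu)))

/-- The staircase diagram `(m, m-1, ..., 1)`: the cells `(i, j)` with `i + j < m`. -/
def staircase (m : ℕ) : YoungDiagram where
  cells := (Finset.range m ×ˢ Finset.range m).filter fun c => c.1 + c.2 < m
  isLowerSet := by
    rintro ⟨a, b⟩ ⟨c, d⟩ hle h
    simp only [Finset.mem_coe, Finset.mem_filter, Finset.mem_product, Finset.mem_range,
      Prod.mk_le_mk] at *
    omega

theorem mem_staircase {m : ℕ} {c : ℕ × ℕ} : c ∈ staircase m ↔ c.1 + c.2 < m := by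
  rw [← YoungDiagram.mem_cells]
  simp only [staircase, Finset.mem_filter, Finset.mem_product, Finset.mem_range]
  omega

end

end Vale.Agent.P197
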